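import Claimed.Agent.R322.Sx.Bottom.Dens
import Claimed.Agent.R322.Pack039

/-!
# R322 / Sx / Bottom / Lim   (blueprint: helper121)

The majorant `botG σ y = sup {(L - C_Q Λ)_σ(x)_+ : x ∈ B_1 ∩ B_σ(y), τ_σ(x) ≤ δ}` of AE Lemma 5.1 (independent of
`h`, `𝒞`), its supremum `botGs σ1 y` over `σ < σ1`; lower semicontinuity, the crude bound `2 δ 1_{B_2}`, and the
pointwise upper limit `≤ 4 Cg δ D_ac(y)`.
-/

set_option autoImplicit false

namespace Claimed.Agent.R322.Sx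

open MeasureTheory Set Metric
open scoped ENNReal NNReal InnerProductSpace

variable {m n : ℕ} {S : Sys m n} {Q : ℕ} {χ : E m → ℝ}

/-- admissible centres at scale `σ`. -/
def Sys.botAdm (S : Sys m n) (Q : ℕ) (χ : E m → ℝ) (δ σ : ℝ) : Set (E m) :=
  {x | x ∈ ball (0 : E m) 1 ∧ S.tauav Q χ σ x ≤ δ}

/-- the majorant at scale `σ`. -/
noncomputable def Sys.botG (S : Sys m n) (Q : ℕ) (χ : E m → ℝ) (CQ δ σ : ℝ) (y : E m) : ℝ≥0∞ :=
  ⨆ x ∈ S.botAdm Q χ δ σ ∩ ball y σ, ENNReal.ofReal (S.Lav Q χ σ x - CQ * S.Lamav χ σ x)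

/-- the majorant for all scales below `σ1`. -/
noncomputable def Sys.botGs (S : Sys m n) (Q : ℕ) (χ : E m → ℝ) (CQ δ σ1 : ℝ) (y : E m) : ℝ≥0∞ :=
  ⨆ σ ∈ Ioo (0 : ℝ) σ1, S.botG Q χ CQ δ σ y

theorem Sys.botG_lsc (S : Sys m n) (Q : ℕ) (χ : E m → ℝ) (CQ δ σ : ℝ) :
    LowerSemicontinuous (S.botG Q χ CQ δ σ) := by
  have h : S.botG Q χ CQ δ σ = fun y => ⨆ x ∈ S.botAdm Q χ δ σ,
      (ball x σ).indicator (fun _ => ENNReal.ofReal (S.Lav Q χ σ x - CQ * S.Lamav χ σ x)) y := by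
    funext y
    unfold Sys.botG
    apply le_antisymm
    · refine iSup₂_le fun x hx => ?_
      refine le_trans ?_ (le_iSup₂ (f := fun x (_ : x ∈ S.botAdm Q χ δ σ) =>
        (ball x σ).indicator (fun _ => ENNReal.ofReal (S.Lav Q χ σ x - CQ * S.Lamav χ σ x)) y)
        x hx.1)
      have : y ∈ ball x σ := by
        have := hx.2
        rw [mem_ball] at this ⊢
        rwa [dist_comm]
      rw [indicator_of_mem this]
    · refine iSup₂_le fun x hx => ?_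
      by_cases hy : y ∈ ball x σ
      · rw [indicator_of_mem hy]
        have hx' : x ∈ S.botAdm Q χ δ σ ∩ ball y σ := by
          refine ⟨hx, ?_⟩
          rw [mem_ball] at hy ⊢
          rwa [dist_comm]
        exact le_iSup₂ (f := fun x (_ : x ∈ S.botAdm Q χ δ σ ∩ ball y σ) =>
          ENNReal.ofReal (S.Lav Q χ σ x - CQ * S.Lamav χ σ x)) x hx'
      · rw [indicator_of_notMem hy]
        exact zero_le
  rw [h]
  exact lowerSemicontinuous_biSup fun x _ => isOpen_ball.lowerSemicontinuous_indicator (zero_le)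

theorem Sys.botGs_measurable (S : Sys m n) (Q : ℕ) (χ : E m → ℝ) (CQ δ σ1 : ℝ) :
    Measurable (S.botGs Q χ CQ δ σ1) :=
  (lowerSemicontinuous_biSup fun σ _ => S.botG_lsc Q χ CQ δ σ).measurable

theorem Sys.botG_le_botGs (S : Sys m n) (Q : ℕ) (χ : E m → ℝ) (CQ δ : ℝ) {σ σ1 : ℝ} (h0 : 0 < σ)
    (h1 : σ < σ1) (y : E m) : S.botG Q χ CQ δ σ y ≤ S.botGs Q χ CQ δ σ1 y :=
  le_iSup₂ (f := fun σ (_ : σ ∈ Ioo (0 : ℝ) σ1) => S.botG Q χ CQ δ σ y) σ ⟨h0, h1⟩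

theorem Sys.botGs_mono (S : Sys m n) (Q : ℕ) (χ : E m → ℝ) (CQ δ : ℝ) {σ1 σ2 : ℝ} (h : σ1 ≤ σ2)
    (y : E m) : S.botGs Q χ CQ δ σ1 y ≤ S.botGs Q χ CQ δ σ2 y :=
  biSup_mono fun _ hσ => ⟨hσ.1, hσ.2.trans_le h⟩

/-- crude bound. -/
theorem BotHyp.botGs_le (H : BotHyp S Q χ) {CQ : ℝ} (hCQ : 0 ≤ CQ) (δ : ℝ) {σ1 : ℝ} (h1 : σ1 ≤ 1)
    (y : E m) :
    S.botGs Q χ CQ δ σ1 y ≤ (ball (0 : E m) 2).indicator (fun _ => ENNReal.ofReal (2 * δ)) y := by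
  refine iSup₂_le fun σ hσ => iSup₂_le fun x hx => ?_
  have hy : y ∈ ball (0 : E m) 2 := by
    have h2 := hx.1.1
    have h3 := hx.2
    rw [mem_ball] at h2 h3 ⊢
    have := dist_triangle y x 0
    rw [dist_comm] at h3
    have := hσ.2
    linarith
  rw [indicator_of_mem hy]
  apply ENNReal.ofReal_le_ofReal
  have := H.Lp_le hCQ hσ.1 x
  have := hx.1.2
  linarith

/-- **pointwise upper limit of the majorant.** -/
theorem BotHyp.botGs_lim (H : BotHyp S Q χ) (CQ δ : ℝ) (hCQ : S.Cg ≤ CQ)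
    (hδ : (8 * S.Cg + 4) * δ ≤ 1) :
    ∀ᵐ y ∂(volume : Measure (E m)), ∀ ε : ℝ, 0 < ε → ∃ σ0 : ℝ, 0 < σ0 ∧
      S.botGs Q χ CQ δ σ0 y ≤ ENNReal.ofReal (4 * S.Cg * δ * acD (S.DT χ) y + ε) := by
  have := H.fin_nuT
  have := H.fin_VT
  have := H.fin_DT
  have := H.fin_LT
  have := H.fin_tauT
  have hCQ0 : 0 ≤ CQ := le_trans (le_trans zero_le_one H.valid.one_le_Cg) hCQ
  filter_upwards [H.dens CQ δ hCQ hδ, gav_diff (S.nuT χ) 1, gav_diff (S.VT χ) 1,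
    gav_diff (S.DT χ) 1, gav_diff (S.LT χ) 1, gav_diff (S.tauT Q χ) 1]
    with y hd h1 h2 h3 h4 h5 ε hε
  by_cases hy : y ∈ ball (0 : E m) 2
  swap
  · refine ⟨1, one_pos, ?_⟩
    refine (H.botGs_le hCQ0 δ le_rfl y).trans ?_
    rw [indicator_of_notMem hy]
    exact zero_le
  by_cases ht : acD (S.tauT Q χ) y ≤ δ
  · have hd' := hd hy ht
    set ε' : ℝ := ε / (3 + 2 * Q + CQ) with hε'
    have hden : 0 < 3 + 2 * (Q : ℝ) + CQ := by positivity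
    have hε'0 : 0 < ε' := div_pos hε hden
    obtain ⟨s1, hs1, g1⟩ := h1 ε' hε'0
    obtain ⟨s2, hs2, g2⟩ := h2 ε' hε'0
    obtain ⟨s3, hs3, g3⟩ := h3 ε' hε'0
    obtain ⟨s4, hs4, g4⟩ := h4 ε' hε'0
    refine ⟨min (min s1 s2) (min s3 s4), by positivity, ?_⟩
    refine iSup₂_le fun σ hσ => iSup₂_le fun x hx => ?_
    apply ENNReal.ofReal_le_ofReal
    have hxy : ‖x - y‖ ≤ 1 * σ := by
      have := hx.2
      rw [mem_ball, dist_eq_norm] at this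
      linarith
    have hσ1 : σ < s1 := lt_of_lt_of_le hσ.2 ((min_le_left _ _).trans (min_le_left _ _))
    have hσ2 : σ < s2 := lt_of_lt_of_le hσ.2 ((min_le_left _ _).trans (min_le_right _ _))
    have hσ3 : σ < s3 := lt_of_lt_of_le hσ.2 ((min_le_right _ _).trans (min_le_left _ _))
    have hσ4 : σ < s4 := lt_of_lt_of_le hσ.2 ((min_le_right _ _).trans (min_le_right _ _))
    have e1 := abs_le.1 (g1 σ hσ.1 hσ1 x hxy)
    have e2 := abs_le.1 (g2 σ hσ.1 hσ2 x hxy)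
    have e3 := abs_le.1 (g3 σ hσ.1 hσ3 x hxy)
    have e4 := abs_le.1 (g4 σ hσ.1 hσ4 x hxy)
    rw [H.Lav_eq, H.Lamav_eq]
    have hQ0 : (0 : ℝ) ≤ Q := Nat.cast_nonneg Q
    have k2 : (Q : ℝ) * (acD (S.VT χ) y - gav (S.VT χ) σ x) ≤ Q * ε' :=
      mul_le_mul_of_nonneg_left (by linarith [e2.1]) hQ0
    have k4 : CQ * (acD (S.LT χ) y - gav (S.LT χ) σ x) ≤ CQ * ε' :=
      mul_le_mul_of_nonneg_left (by linarith [e4.1]) hCQ0
    have hsum : (3 + 2 * (Q : ℝ) + CQ) * ε' = ε := by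
      rw [hε']; field_simp
    nlinarith [e1.2, e3.1, k2, k4, hd', hsum]
  · rw [not_le] at ht
    obtain ⟨s5, hs5, g5⟩ := h5 ((acD (S.tauT Q χ) y - δ) / 2) (by linarith)
    refine ⟨s5, hs5, ?_⟩
    refine iSup₂_le fun σ hσ => iSup₂_le fun x hx => ?_
    exfalso
    have hxy : ‖x - y‖ ≤ 1 * σ := by
      have := hx.2
      rw [mem_ball, dist_eq_norm] at this
      linarith
    have e5 := abs_le.1 (g5 σ hσ.1 hσ.2 x hxy)
    have := hx.1.2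
    rw [H.tauav_eq] at this
    linarith [e5.1]

end Claimed.Agent.R322.Sx
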