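import Claimed.Agent.R322.Sx.Path
import Claimed.Agent.R322.Pack039

/-!
# R322 / Sx / Bottom / Conv   (blueprint: helper121)   LEAVES `L-Bot-ConvFin`, `L-Bot-ConvGav`

The truncated measures `χ ν`, `χ vol_S`, `χ D`, `χ Λ`, `χ τ` are finite measures on `E m`, and the averages
`L_σ`, `Λ_σ`, `τ_σ` of `Defs.lean` are Gaussian averages `gav` of them.

`BotHyp S Q χ` = the part of `Root` which is used in AE Lemma 5.1.

Hints.  `χ` is continuous (`cut.smooth.continuous`), `0 ≤ χ ≤ 1`, `χ = 0` off `closedBall 0 3 ⊆ ball 0 4 ⊆ Ω`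
(`cut.supp`, `subset_tsupport`).
* finiteness: `pushT χ φ univ = ∫⁻ q, ofReal (χ q.1) * ofReal (φ q) ∂μ ≤ ofReal C * μ (closedBall 0 3 ×ˢ univ) < ∞`
  (`lintegral_withDensity_eq_lintegral_mul`, `lintegral_map`, `Valid.finite_mass`); `e ≤ m` (`Valid.e_le`),
  `lam ≤ Cg`; `VT univ ≤ 2 vol (closedBall 0 3)`; `tauT univ ≤ τ (closedBall 0 3) ≤ τ (ball 0 4) < ∞`.
* `gav_pushT`: `integral_withDensity_eq_integral_toReal_smul`, `integral_map`.
* `Lp_le`: `L_σ = 2 ∫ ker dM - ∫ ker dD ≤ 2 |∫ ker dM| ≤ 2 ∫ ker d|M|` (`Valid.abs_intM_le`, `K = closedBall 0 3`)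
  `≤ 2 ∫ ker dτ` (`integral_mono_measure`, `ker ≥ 0`, `ker` bounded with support in `closedBall 0 3`, where `τ` is finite),
  `∫ ker dD ≥ 0`, `Λ_σ ≥ 0`.
-/

set_option autoImplicit false

namespace Claimed.Agent.R322.Sx

open MeasureTheory Set Metric
open scoped ENNReal NNReal InnerProductSpace

variable {m n : ℕ}

/-- `χ π_# (φ μ)`. -/
noncomputable def Sys.pushT (S : Sys m n) (χ : E m → ℝ) (φ : E m × E n → ℝ) : Measure (E m) :=
  ((S.μ.withDensity fun q => ENNReal.ofReal (φ q)).map Prod.fst).withDensity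
    fun y => ENNReal.ofReal (χ y)

/-- `χ ν`. -/
noncomputable def Sys.nuT (S : Sys m n) (χ : E m → ℝ) : Measure (E m) :=
  S.nu.withDensity fun y => ENNReal.ofReal (χ y)

/-- `χ D`. -/
noncomputable def Sys.DT (S : Sys m n) (χ : E m → ℝ) : Measure (E m) :=
  S.Dm.withDensity fun y => ENNReal.ofReal (χ y)

/-- `χ Λ`. -/
noncomputable def Sys.LT (S : Sys m n) (χ : E m → ℝ) : Measure (E m) :=
  S.Lm.withDensity fun y => ENNReal.ofReal (χ y)

/-- `χ vol_S`. -/
noncomputable def Sys.VT (S : Sys m n) (χ : E m → ℝ) : Measure (E m) :=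
  S.volS.withDensity fun y => ENNReal.ofReal (χ y)

/-- the hypotheses of AE Lemma 5.1 on the system and the cutoff. -/
structure BotHyp (S : Sys m n) (Q : ℕ) (χ : E m → ℝ) : Prop where
  valid : S.Valid
  room : ball (0 : E m) 4 ⊆ S.Ω
  fin : S.tau Q (ball (0 : E m) 4) < ∞
  cut : IsCutoff χ (0 : E m) 2 1

theorem Root.botHyp {S : Sys m n} {Q : ℕ} {κ Cg T : ℝ} {χ : E m → ℝ} (R : Root S Q κ Cg T χ) :
    BotHyp S Q χ :=
  ⟨R.hyp.valid, R.hyp.room, lt_of_le_of_lt R.hyp.small ENNReal.ofReal_lt_top, R.cut⟩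

variable {S : Sys m n} {Q : ℕ} {χ : E m → ℝ}

theorem Sys.nuT_eq (S : Sys m n) (χ : E m → ℝ) : S.nuT χ = S.pushT χ fun _ => 1 := by
  simp [Sys.nuT, Sys.pushT, Sys.nu]

theorem Sys.DT_eq (S : Sys m n) (χ : E m → ℝ) : S.DT χ = S.pushT χ S.e := rfl

theorem Sys.LT_eq (S : Sys m n) (χ : E m → ℝ) : S.LT χ = S.pushT χ S.lam := rfl

/-! ### finiteness  (LEAF `L-Bot-ConvFin`) -/

theorem BotHyp.chi_cont (H : BotHyp S Q χ) : Continuous χ := H.cut.smooth.continuous

theorem BotHyp.chi_meas (H : BotHyp S Q χ) : Measurable fun y => ENNReal.ofReal (χ y) :=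
  H.chi_cont.measurable.ennreal_ofReal

theorem BotHyp.chi_zero (H : BotHyp S Q χ) {y : E m} (hy : y ∉ closedBall (0 : E m) 3) :
    χ y = 0 := by
  apply image_eq_zero_of_notMem_tsupport
  intro h
  apply hy
  have := H.cut.supp h
  norm_num at this
  simpa using this

theorem BotHyp.chi_le (H : BotHyp S Q χ) (y : E m) :
    ENNReal.ofReal (χ y) ≤ (closedBall (0 : E m) 3).indicator (fun _ => (1 : ℝ≥0∞)) y := by
  by_cases hy : y ∈ closedBall (0 : E m) 3
  · rw [indicator_of_mem hy, ← ENNReal.ofReal_one]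
    exact ENNReal.ofReal_le_ofReal (H.cut.le_one y)
  · rw [indicator_of_notMem hy, H.chi_zero hy, ENNReal.ofReal_zero]

theorem BotHyp.cb_sub_ball : closedBall (0 : E m) 3 ⊆ ball (0 : E m) 4 :=
  closedBall_subset_ball (by norm_num)

theorem BotHyp.cb_sub (H : BotHyp S Q χ) : closedBall (0 : E m) 3 ⊆ S.Ω :=
  BotHyp.cb_sub_ball.trans H.room

/-- truncation by `χ`: total mass. -/
theorem BotHyp.trunc_univ_le (H : BotHyp S Q χ) (ν : Measure (E m)) :
    (ν.withDensity fun y => ENNReal.ofReal (χ y)) univ ≤ ν (closedBall (0 : E m) 3) := by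
  rw [withDensity_apply _ MeasurableSet.univ, Measure.restrict_univ]
  refine (lintegral_mono H.chi_le).trans (le_of_eq ?_)
  rw [lintegral_indicator measurableSet_closedBall, setLIntegral_const, one_mul]

theorem BotHyp.fin_pushT (H : BotHyp S Q χ) {φ : E m × E n → ℝ} (hφ : Measurable φ) (C : ℝ)
    (hC : ∀ q, φ q ≤ C) : IsFiniteMeasure (S.pushT χ φ) := by
  constructor
  refine lt_of_le_of_lt (H.trunc_univ_le _) ?_
  rw [Measure.map_apply measurable_fst measurableSet_closedBall,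
    withDensity_apply _ (measurable_fst measurableSet_closedBall)]
  have h1 : ∫⁻ q in Prod.fst ⁻¹' closedBall (0 : E m) 3, ENNReal.ofReal (φ q) ∂S.μ
      ≤ ∫⁻ _q in Prod.fst ⁻¹' closedBall (0 : E m) 3, ENNReal.ofReal C ∂S.μ :=
    lintegral_mono fun q => ENNReal.ofReal_le_ofReal (hC q)
  refine lt_of_le_of_lt h1 ?_
  rw [setLIntegral_const]
  have h2 : (Prod.fst ⁻¹' closedBall (0 : E m) 3 : Set (E m × E n))
      = closedBall (0 : E m) 3 ×ˢ (univ : Set (E n)) := by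
    ext q; simp
  rw [h2]
  exact ENNReal.mul_lt_top ENNReal.ofReal_lt_top
    (H.valid.finite_mass _ (isCompact_closedBall _ _) H.cb_sub)

theorem BotHyp.fin_nuT (H : BotHyp S Q χ) : IsFiniteMeasure (S.nuT χ) := by
  rw [Sys.nuT_eq]
  exact H.fin_pushT measurable_const 1 fun _ => le_rfl

theorem BotHyp.fin_DT (H : BotHyp S Q χ) : IsFiniteMeasure (S.DT χ) :=
  H.fin_pushT H.valid.meas_e m H.valid.e_le

theorem BotHyp.fin_LT (H : BotHyp S Q χ) : IsFiniteMeasure (S.LT χ) :=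
  H.fin_pushT H.valid.meas_lam S.Cg H.valid.lam_le

theorem BotHyp.fin_VT (H : BotHyp S Q χ) : IsFiniteMeasure (S.VT χ) := by
  constructor
  refine lt_of_le_of_lt (H.trunc_univ_le _) ?_
  unfold Sys.volS
  rw [withDensity_apply _ measurableSet_closedBall]
  have h1 : ∫⁻ y in closedBall (0 : E m) 3, ENNReal.ofReal (S.a y) ∂(volume.restrict S.Ω)
      ≤ ∫⁻ _y in closedBall (0 : E m) 3, ENNReal.ofReal 2 ∂(volume.restrict S.Ω) :=
    lintegral_mono fun y => ENNReal.ofReal_le_ofReal (H.valid.a_upper y)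
  refine lt_of_le_of_lt h1 ?_
  rw [setLIntegral_const]
  refine ENNReal.mul_lt_top ENNReal.ofReal_lt_top ?_
  exact lt_of_le_of_lt (Measure.restrict_apply_le _ _) measure_closedBall_lt_top

theorem BotHyp.fin_tauT (H : BotHyp S Q χ) : IsFiniteMeasure (S.tauT Q χ) := by
  constructor
  exact lt_of_le_of_lt ((H.trunc_univ_le _).trans (measure_mono BotHyp.cb_sub_ball)) H.fin

/-- `(χ D)(E m) ≤ τ(B_4)`. -/
theorem BotHyp.DT_univ_le (H : BotHyp S Q χ) : S.DT χ univ ≤ S.tau Q (ball (0 : E m) 4) := by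
  refine (H.trunc_univ_le _).trans ((measure_mono BotHyp.cb_sub_ball).trans ?_)
  unfold Sys.tau
  rw [Measure.add_apply, Measure.add_apply]
  exact le_trans le_add_self le_self_add


/-! ### the averages are Gaussian averages of the truncated measures  (LEAF `L-Bot-ConvGav`) -/

theorem bt_gauss_cont_sub (m : ℕ) (σ : ℝ) (x : E m) : Continuous fun y : E m => gauss m σ (y - x) :=
  (bt_gauss_continuous m σ).comp (continuous_id.sub continuous_const)

theorem BotHyp.ker_cont (H : BotHyp S Q χ) (σ : ℝ) (x : E m) : Continuous (Sys.ker χ σ x) :=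
  H.chi_cont.mul (bt_gauss_cont_sub m σ x)

theorem BotHyp.ker_nonneg (H : BotHyp S Q χ) (σ : ℝ) (x y : E m) : 0 ≤ Sys.ker χ σ x y :=
  mul_nonneg (H.cut.nonneg y) (bt_gauss_nonneg m σ _)

/-- integration against a truncated measure. -/
theorem BotHyp.gav_trunc (H : BotHyp S Q χ) (ν : Measure (E m)) (σ : ℝ) (x : E m) :
    gav (ν.withDensity fun y => ENNReal.ofReal (χ y)) σ x = ∫ y, Sys.ker χ σ x y ∂ν := by
  unfold gav
  rw [integral_withDensity_eq_integral_toReal_smul H.chi_meas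
    (Filter.Eventually.of_forall fun y => ENNReal.ofReal_lt_top)]
  refine integral_congr_ae (Filter.Eventually.of_forall fun y => ?_)
  simp only [smul_eq_mul, ENNReal.toReal_ofReal (H.cut.nonneg y)]
  rfl

theorem BotHyp.gav_pushT (H : BotHyp S Q χ) {φ : E m × E n → ℝ} (hφ : Measurable φ)
    (h0 : ∀ q, 0 ≤ φ q) (σ : ℝ) (x : E m) :
    gav (S.pushT χ φ) σ x = ∫ q, Sys.ker χ σ x q.1 * φ q ∂S.μ := by
  unfold Sys.pushT
  rw [H.gav_trunc, integral_map measurable_fst.aemeasurable (H.ker_cont σ x).aestronglyMeasurable,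
    integral_withDensity_eq_integral_toReal_smul hφ.ennreal_ofReal
      (Filter.Eventually.of_forall fun y => ENNReal.ofReal_lt_top)]
  refine integral_congr_ae (Filter.Eventually.of_forall fun q => ?_)
  simp only [smul_eq_mul, ENNReal.toReal_ofReal (h0 q)]
  ring

theorem BotHyp.gav_VT (H : BotHyp S Q χ) (σ : ℝ) (x : E m) :
    gav (S.VT χ) σ x = ∫ y in S.Ω, Sys.ker χ σ x y * S.a y := by
  unfold Sys.VT Sys.volS
  rw [H.gav_trunc, integral_withDensity_eq_integral_toReal_smul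
      H.valid.a_contDiff.continuous.measurable.ennreal_ofReal
      (Filter.Eventually.of_forall fun y => ENNReal.ofReal_lt_top)]
  refine integral_congr_ae (Filter.Eventually.of_forall fun y => ?_)
  have : 0 ≤ S.a y := le_trans (by norm_num) (H.valid.a_lower y)
  simp only [smul_eq_mul, ENNReal.toReal_ofReal this]
  ring

theorem BotHyp.tauav_eq (H : BotHyp S Q χ) (σ : ℝ) (x : E m) :
    S.tauav Q χ σ x = gav (S.tauT Q χ) σ x := by
  unfold Sys.tauT
  rw [H.gav_trunc]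
  rfl

theorem BotHyp.Lamav_eq (H : BotHyp S Q χ) (σ : ℝ) (x : E m) :
    S.Lamav χ σ x = gav (S.LT χ) σ x := by
  rw [Sys.LT_eq, H.gav_pushT H.valid.meas_lam H.valid.lam_nonneg]
  rfl

theorem BotHyp.Lav_eq (H : BotHyp S Q χ) (σ : ℝ) (x : E m) :
    S.Lav Q χ σ x
      = 2 * (gav (S.nuT χ) σ x - Q * gav (S.VT χ) σ x) - gav (S.DT χ) σ x := by
  rw [Sys.DT_eq, Sys.nuT_eq, H.gav_pushT H.valid.meas_e H.valid.e_nonneg,
    H.gav_pushT measurable_const (fun _ => zero_le_one), H.gav_VT]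
  simp only [mul_one]
  rfl

/-- the kernel is integrable against `τ`. -/
theorem BotHyp.ker_integrable_tau (H : BotHyp S Q χ) (σ : ℝ) (x : E m) :
    Integrable (Sys.ker χ σ x) (S.tau Q) := by
  have := H.fin_tauT
  have h1 : Integrable (fun y => gauss m σ (y - x)) (S.tauT Q χ) := bt_gauss_integrable_fin _ σ x
  unfold Sys.tauT at h1
  rw [integrable_withDensity_iff_integrable_smul' H.chi_meas
    (Filter.Eventually.of_forall fun y => ENNReal.ofReal_lt_top)] at h1
  refine h1.congr (Filter.Eventually.of_forall fun y => ?_)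
  simp only [smul_eq_mul, ENNReal.toReal_ofReal (H.cut.nonneg y)]
  rfl

/-- the crude bound `(L - C_Q Λ)_σ ≤ 2 τ_σ`. -/
theorem BotHyp.Lp_le (H : BotHyp S Q χ) {CQ : ℝ} (hCQ : 0 ≤ CQ) {σ : ℝ} (hσ : 0 < σ) (x : E m) :
    S.Lav Q χ σ x - CQ * S.Lamav χ σ x ≤ 2 * S.tauav Q χ σ x := by
  set w := Sys.ker χ σ x with hw
  have hw0 : ∀ y, 0 ≤ w y := H.ker_nonneg σ x
  have hsupp : Function.support w ⊆ closedBall (0 : E m) 3 := by
    intro y hy
    by_contra hcon
    apply hy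
    rw [hw]
    unfold Sys.ker
    rw [H.chi_zero hcon, zero_mul]
  have hb : ∀ y, |w y| ≤ (2 * Real.pi * σ ^ 2) ^ (-(m : ℝ) / 2) := by
    intro y
    rw [abs_of_nonneg (hw0 y)]
    calc w y = χ y * gauss m σ (y - x) := rfl
      _ ≤ 1 * gauss m σ (y - x) :=
          mul_le_mul_of_nonneg_right (H.cut.le_one y) (bt_gauss_nonneg m σ _)
      _ ≤ _ := by rw [one_mul]; exact bt_gauss_le m σ _
  have h1 := H.valid.abs_intM_le Q (H.ker_cont σ x).measurable (isCompact_closedBall _ _) H.cb_sub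
    hsupp _ hb
  have h2 : ∫ y, |w y| ∂(S.absM Q) ≤ S.tauav Q χ σ x := by
    have h3 : ∫ y, |w y| ∂(S.absM Q) = ∫ y, w y ∂(S.absM Q) :=
      integral_congr_ae (Filter.Eventually.of_forall fun y => abs_of_nonneg (hw0 y))
    rw [h3]
    refine integral_mono_measure ?_ (Filter.Eventually.of_forall hw0) (H.ker_integrable_tau σ x)
    unfold Sys.tau
    rw [add_assoc]
    exact Measure.le_add_right le_rfl
  have h4 : 0 ≤ S.intD w :=
    integral_nonneg fun q => mul_nonneg (hw0 _) (H.valid.e_nonneg q)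
  have h5 : 0 ≤ S.Lamav χ σ x :=
    integral_nonneg fun q => mul_nonneg (hw0 _) (H.valid.lam_nonneg q)
  have h6 : S.Lav Q χ σ x = 2 * S.intM Q w - S.intD w := rfl
  have h7 := le_abs_self (S.intM Q w)
  have h8 : 0 ≤ CQ * S.Lamav χ σ x := mul_nonneg hCQ h5
  rw [h6]
  linarith

end Claimed.Agent.R322.Sx
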