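import Claimed.Agent.R322.Sx.Bottom.Conv

/-!
# R322 / Sx / Bottom / Ident   (blueprint: helper121)   LEAF `L-Bot-Ident`

Densities of `χ vol_S` and `χ τ` on `B_2` (pure Radon-Nikodym calculus).

`VT_ac`: `VT χ = volume.withDensity (1_Ω · ofReal a · ofReal χ)` (`withDensity_indicator`/`restrict_withDensity`,
`withDensity_mul`), `Measure.rnDeriv_withDensity`; on `ball 0 2`: `y ∈ Ω`, `χ y = 1`.

`tauT_ac`: `χ' = ofReal ∘ χ`.  `tauT = (absM Q).withDensity χ' + DT + LT` (`withDensity_add_measure`); the three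
measures are finite (each is `≤ tauT`, `BotHyp.fin_tauT`; or `fin_DT`, `fin_LT`); `Measure.rnDeriv_add` twice;
`Measure.rnDeriv_lt_top` for the additivity of `toReal`.
`(absM Q).withDensity χ' = A₁ + A₂`, `A₁ = ((ν.singularPart volume).restrict Ω).withDensity χ' ⟂ₘ volume`
(`Measure.mutuallySingular_singularPart`, `MutuallySingular.mono_ac`/`restrict`, `withDensity_absolutelyContinuous`),
`A₂ = volume.withDensity (1_Ω · g · χ')`, `g y = ofReal |ν_ac y - Q a y|`; `Measure.eq_rnDeriv`.
Finally `acD (nuT χ) y = ν_ac y` a.e. on `ball 0 2`: `Measure.rnDeriv_withDensity_left` with `Valid.sigmaFinite_nu`.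
-/

set_option autoImplicit false

namespace Claimed.Agent.R322.Sx

open MeasureTheory Set Metric
open scoped ENNReal NNReal InnerProductSpace

variable {m n : ℕ} {S : Sys m n} {Q : ℕ} {χ : E m → ℝ}

/-- `((vol⌞Ω) g) χ' = vol (1_Ω g χ')`. -/
theorem id_trunc_withDensity {Ω : Set (E m)} (hΩ : MeasurableSet Ω) {g c : E m → ℝ≥0∞}
    (hg : Measurable g) (hc : Measurable c) :
    (((volume : Measure (E m)).restrict Ω).withDensity g).withDensity c
      = (volume : Measure (E m)).withDensity (Ω.indicator g * c) := by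
  rw [← withDensity_indicator hΩ, withDensity_mul _ (hg.indicator hΩ) hc]

theorem BotHyp.mem_Ω (H : BotHyp S Q χ) {y : E m} (hy : y ∈ ball (0 : E m) 2) : y ∈ S.Ω :=
  H.room (ball_subset_ball (by norm_num) hy)

theorem BotHyp.VT_ac (H : BotHyp S Q χ) :
    ∀ᵐ y ∂(volume : Measure (E m)), y ∈ ball (0 : E m) 2 → acD (S.VT χ) y = S.a y := by
  have hΩ := H.valid.isOpen_Ω.measurableSet
  have ha : Measurable fun y => ENNReal.ofReal (S.a y) :=
    H.valid.a_contDiff.continuous.measurable.ennreal_ofReal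
  have h1 : S.VT χ = (volume : Measure (E m)).withDensity
      (S.Ω.indicator (fun y => ENNReal.ofReal (S.a y)) * fun y => ENNReal.ofReal (χ y)) :=
    id_trunc_withDensity hΩ ha H.chi_meas
  have h2 := Measure.rnDeriv_withDensity (volume : Measure (E m))
    ((ha.indicator hΩ).mul H.chi_meas)
  rw [← h1] at h2
  filter_upwards [h2] with y hy hy2
  unfold acD
  rw [hy, Pi.mul_apply, indicator_of_mem (H.mem_Ω hy2), H.cut.eq_one y hy2, ENNReal.ofReal_one,
    mul_one, ENNReal.toReal_ofReal (le_trans (by norm_num) (H.valid.a_lower y))]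

/-- density of `χ ν` on `B_2`. -/
theorem BotHyp.nuT_ac (H : BotHyp S Q χ) :
    ∀ᵐ y ∂(volume : Measure (E m)), y ∈ ball (0 : E m) 2 →
      acD (S.nuT χ) y = (S.nu.rnDeriv volume y).toReal := by
  have := H.valid.sigmaFinite_nu
  have h1 := Measure.rnDeriv_withDensity_left (μ := S.nu) (ν := (volume : Measure (E m)))
    H.chi_meas.aemeasurable (Filter.Eventually.of_forall fun y => ENNReal.ofReal_ne_top)
  filter_upwards [h1] with y hy hy2
  unfold acD Sys.nuT
  rw [hy, H.cut.eq_one y hy2, ENNReal.ofReal_one, one_mul]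

/-- `χ |M|`. -/
noncomputable def Sys.AT (S : Sys m n) (Q : ℕ) (χ : E m → ℝ) : Measure (E m) :=
  (S.absM Q).withDensity fun y => ENNReal.ofReal (χ y)

theorem BotHyp.fin_AT (H : BotHyp S Q χ) : IsFiniteMeasure (S.AT Q χ) := by
  constructor
  refine lt_of_le_of_lt ((H.trunc_univ_le _).trans ((measure_mono BotHyp.cb_sub_ball).trans ?_))
    H.fin
  unfold Sys.tau
  rw [Measure.add_apply, Measure.add_apply, add_assoc]
  exact le_self_add

theorem Sys.tauT_eq (S : Sys m n) (Q : ℕ) (χ : E m → ℝ) : S.tauT Q χ = S.AT Q χ + S.DT χ + S.LT χ := by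
  unfold Sys.tauT Sys.tau Sys.AT Sys.DT Sys.LT
  rw [withDensity_add_measure, withDensity_add_measure]

/-- density of `χ |M|` on `B_2`. -/
theorem BotHyp.AT_ac (H : BotHyp S Q χ) :
    ∀ᵐ y ∂(volume : Measure (E m)), y ∈ ball (0 : E m) 2 →
      (S.AT Q χ).rnDeriv volume y
        = ENNReal.ofReal |(S.nu.rnDeriv volume y).toReal - Q * S.a y| := by
  have hΩ := H.valid.isOpen_Ω.measurableSet
  set g : E m → ℝ≥0∞ := fun y => ENNReal.ofReal |(S.nu.rnDeriv volume y).toReal - Q * S.a y|
    with hg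
  have hgm : Measurable g :=
    (((Measure.measurable_rnDeriv S.nu volume).ennreal_toReal.sub
      (measurable_const.mul H.valid.a_contDiff.continuous.measurable)).abs).ennreal_ofReal
  have h1 : S.AT Q χ
      = ((S.nu.singularPart volume).restrict S.Ω).withDensity (fun y => ENNReal.ofReal (χ y))
        + (volume : Measure (E m)).withDensity (S.Ω.indicator g * fun y => ENNReal.ofReal (χ y)) := by
    unfold Sys.AT Sys.absM
    rw [Measure.restrict_add, withDensity_add_measure, restrict_withDensity hΩ,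
      id_trunc_withDensity hΩ hgm H.chi_meas]
  have h2 : ((S.nu.singularPart volume).restrict S.Ω).withDensity (fun y => ENNReal.ofReal (χ y))
      ⟂ₘ (volume : Measure (E m)) :=
    ((Measure.mutuallySingular_singularPart S.nu volume).restrict S.Ω).withDensity
  have h3 := Measure.eq_rnDeriv ((hgm.indicator hΩ).mul H.chi_meas) h2 h1
  filter_upwards [h3] with y hy hy2
  rw [← hy, Pi.mul_apply, indicator_of_mem (H.mem_Ω hy2), H.cut.eq_one y hy2, ENNReal.ofReal_one,
    mul_one]

theorem BotHyp.tauT_ac (H : BotHyp S Q χ) :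
    ∀ᵐ y ∂(volume : Measure (E m)), y ∈ ball (0 : E m) 2 →
      acD (S.tauT Q χ) y
        = |acD (S.nuT χ) y - Q * S.a y| + acD (S.DT χ) y + acD (S.LT χ) y := by
  have := H.fin_AT
  have := H.fin_DT
  have := H.fin_LT
  have h1 := Measure.rnDeriv_add (S.AT Q χ + S.DT χ) (S.LT χ) (volume : Measure (E m))
  have h2 := Measure.rnDeriv_add (S.AT Q χ) (S.DT χ) (volume : Measure (E m))
  rw [← S.tauT_eq Q χ] at h1
  filter_upwards [h1, h2, H.AT_ac, H.nuT_ac, (S.DT χ).rnDeriv_lt_top volume,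
    (S.LT χ).rnDeriv_lt_top volume] with y h1 h2 h3 h4 h5 h6 hy
  unfold acD at h4 ⊢
  rw [h1, Pi.add_apply, h2, Pi.add_apply, h3 hy, h4 hy,
    ENNReal.toReal_add (ENNReal.add_ne_top.2 ⟨ENNReal.ofReal_ne_top, h5.ne⟩) h6.ne,
    ENNReal.toReal_add ENNReal.ofReal_ne_top h5.ne, ENNReal.toReal_ofReal (abs_nonneg _)]

end Claimed.Agent.R322.Sx
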