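import Claimed.Agent.R322.Sx.Bottom.Push
import Claimed.Agent.R322.Sx.Bottom.Ident
import Claimed.Agent.R322.Pack044

/-!
# R322 / Sx / Bottom / Dens   (blueprint: helper121)

At a.e. point of `B_2` where the density of `χ τ` is `≤ δ` (small), the density of `L - C_Q Λ` is
`≤ 4 Cg δ D_ac` (AE, end of the proof of Lemma 5.1).
-/

set_option autoImplicit false

namespace Claimed.Agent.R322.Sx

open MeasureTheory Set Metric
open scoped ENNReal NNReal InnerProductSpace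

variable {m n : ℕ} {S : Sys m n} {Q : ℕ} {χ : E m → ℝ}

theorem BotHyp.dens (H : BotHyp S Q χ) (CQ δ : ℝ) (hCQ : S.Cg ≤ CQ)
    (hδ : (8 * S.Cg + 4) * δ ≤ 1) :
    ∀ᵐ y ∂(volume : Measure (E m)), y ∈ ball (0 : E m) 2 → acD (S.tauT Q χ) y ≤ δ →
      2 * (acD (S.nuT χ) y - Q * acD (S.VT χ) y) - acD (S.DT χ) y - CQ * acD (S.LT χ) y
        ≤ 4 * S.Cg * δ * acD (S.DT χ) y := by
  have hpos : ∀ᵐ y ∂(volume : Measure (E m)), y ∈ S.Ω → ∀ ζ ∈ S.fib y, 0 < S.Jpi (y, ζ) :=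
    (ae_restrict_iff' H.valid.isOpen_Ω.measurableSet).1 H.valid.fib_Jpi_pos
  have h1 := H.pushT_ac (φ := fun _ => 1) measurable_const (fun _ => zero_le_one)
  have h2 := H.pushT_ac H.valid.meas_e H.valid.e_nonneg
  have h3 := H.pushT_ac H.valid.meas_lam H.valid.lam_nonneg
  rw [← Sys.nuT_eq] at h1
  rw [← Sys.DT_eq] at h2
  rw [← Sys.LT_eq] at h3
  filter_upwards [hpos, h1, h2, h3, H.VT_ac, H.tauT_ac] with y hpos h1 h2 h3 h4 h5 hy ht
  have hyΩ : y ∈ S.Ω := H.room (ball_subset_ball (by norm_num) hy)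
  rw [h5 hy, h1 hy, h2 hy, h3 hy] at ht
  rw [h1 hy, h2 hy, h3 hy, h4 hy]
  exact bot_multiset (S.fib y) (fun ζ => S.Jpi (y, ζ)) (fun ζ => S.e (y, ζ))
    (fun ζ => S.lam (y, ζ)) Q S.Cg CQ δ (S.a y) H.valid.one_le_Cg hCQ hδ (H.valid.a_lower y)
    (hpos hyΩ) (fun ζ _ => H.valid.e_nonneg _) (fun ζ _ => H.valid.lam_nonneg _)
    (fun ζ _ => H.valid.Jpi_close _) (fun ζ _ => H.valid.Jpi_signed _) ht

end Claimed.Agent.R322.Sx
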