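import Claimed.Agent.R322.Sx.Bottom.Conv

/-!
# R322 / Sx / Bottom / Push   (blueprint: helper121)   LEAF `L-Bot-Push`

The absolutely continuous density of `χ π_# (φ μ)` is `a(y) Σ_{ζ ∈ fib y} φ(y, ζ) / J_π(y, ζ)` on `B_2`
(AE Lemma 2.3 as used in the proof of AE Lemma 5.1): axioms `Valid.count`, `Valid.count_meas`, `Valid.defic`.

Proof.  Put `P = pushT χ φ`, `χ' = ofReal ∘ χ`, `J = S.Jpi`, and for a measurable set `A ⊆ E m`
  `P A = ∫⁻ q, 1_A(q.1) χ'(q.1) ofReal (φ q) ∂μ`   (`withDensity_apply`, `lintegral_map`, `lintegral_withDensity_eq_lintegral_mul`).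
Split `ofReal (φ q) = ofReal (φ q / J q) * ofReal (J q) + 1_{J = 0}(q) ofReal (φ q)` (real division: `φ / 0 = 0`; `J ≥ 0`).
* first part: `Valid.count` with `g q = 1_A(q.1) χ'(q.1) ofReal (φ q / J q)`;
  `fibSum g y = 1_A(y) χ'(y) ofReal (fibR φ y)` (induction on the multiset, `ENNReal.ofReal_add`, all terms `≥ 0`).
  Hence the first part is `volume.withDensity f`, `f y = 1_Ω(y) χ'(y) ofReal (fibR φ y) ofReal (a y)`;
  `f` is a.e.-measurable by `Valid.count_meas` (`g q = ofReal (φ q / J q)`; `aemeasurable_indicator_iff`).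
* second part `P_s`: with `Z` from `Valid.defic`, `P_s Zᶜ = 0` and `volume Z = 0`, so `P_s ⟂ₘ volume`.
* `Measure.eq_rnDeriv₀ : f =ᵐ[volume] P.rnDeriv volume`.  On `ball 0 2`: `χ = 1` (`cut.eq_one`), `y ∈ Ω`.
-/

set_option autoImplicit false

namespace Claimed.Agent.R322.Sx

open MeasureTheory Set Metric
open scoped ENNReal NNReal InnerProductSpace

variable {m n : ℕ} {S : Sys m n} {Q : ℕ} {χ : E m → ℝ}

/-- fibre sum with the weight `1 / J_π`. -/
noncomputable def Sys.fibR (S : Sys m n) (φ : E m × E n → ℝ) (y : E m) : ℝ :=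
  ((S.fib y).map fun ζ => φ (y, ζ) / S.Jpi (y, ζ)).sum

theorem pu_ofReal_sum {α : Type*} (F : Multiset α) (t : α → ℝ) (ht : ∀ i, 0 ≤ t i) :
    (F.map fun i => ENNReal.ofReal (t i)).sum = ENNReal.ofReal (F.map t).sum := by
  induction F using Multiset.induction_on with
  | empty => simp
  | cons a F ih =>
    rw [Multiset.map_cons, Multiset.sum_cons, Multiset.map_cons, Multiset.sum_cons, ih,
      ENNReal.ofReal_add (ht a)]
    apply Multiset.sum_nonneg
    intro x hx
    obtain ⟨i, _, rfl⟩ := Multiset.mem_map.1 hx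
    exact ht i

theorem Sys.fibSum_eq_fibR (S : Sys m n) (hJ : ∀ q, 0 ≤ S.Jpi q) {φ : E m × E n → ℝ}
    (h0 : ∀ q, 0 ≤ φ q) (y : E m) :
    S.fibSum (fun q => ENNReal.ofReal (φ q / S.Jpi q)) y = ENNReal.ofReal (S.fibR φ y) := by
  unfold Sys.fibSum Sys.fibR
  exact pu_ofReal_sum _ _ fun ζ => div_nonneg (h0 _) (hJ _)

theorem Sys.fibSum_mul_left (S : Sys m n) (c : E m → ℝ≥0∞) (g : E m × E n → ℝ≥0∞) (y : E m) :
    S.fibSum (fun q => c q.1 * g q) y = c y * S.fibSum g y := by
  unfold Sys.fibSum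
  rw [← Multiset.sum_map_mul_left]

/-- the a.c. part. -/
theorem BotHyp.push_ac_part (H : BotHyp S Q χ) {φ : E m × E n → ℝ} (hφ : Measurable φ) :
    ((S.μ.withDensity fun q => ENNReal.ofReal (φ q / S.Jpi q) * ENNReal.ofReal (S.Jpi q)).map
        Prod.fst).withDensity (fun y => ENNReal.ofReal (χ y))
      = (volume : Measure (E m)).withDensity
        (S.Ω.indicator (fun y => S.fibSum (fun q => ENNReal.ofReal (φ q / S.Jpi q)) y
          * ENNReal.ofReal (S.a y)) * fun y => ENNReal.ofReal (χ y)) := by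
  have hΩ := H.valid.isOpen_Ω.measurableSet
  have hg0 : Measurable fun q => ENNReal.ofReal (φ q / S.Jpi q) :=
    (hφ.div H.valid.meas_Jpi).ennreal_ofReal
  have hJm : Measurable fun q => ENNReal.ofReal (S.Jpi q) := H.valid.meas_Jpi.ennreal_ofReal
  ext A hA
  have hind : Measurable (A.indicator fun y => ENNReal.ofReal (χ y)) := H.chi_meas.indicator hA
  have h1 : ∫⁻ q, A.indicator (fun y => ENNReal.ofReal (χ y)) q.1
        ∂(S.μ.withDensity fun q => ENNReal.ofReal (φ q / S.Jpi q) * ENNReal.ofReal (S.Jpi q))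
      = ∫⁻ q, (A.indicator (fun y => ENNReal.ofReal (χ y)) q.1 * ENNReal.ofReal (φ q / S.Jpi q))
        * ENNReal.ofReal (S.Jpi q) ∂S.μ := by
    rw [lintegral_withDensity_eq_lintegral_mul S.μ
      (f := fun q => ENNReal.ofReal (φ q / S.Jpi q) * ENNReal.ofReal (S.Jpi q)) (hg0.mul hJm)
      (g := fun q : E m × E n => A.indicator (fun y => ENNReal.ofReal (χ y)) q.1)
      (hind.comp measurable_fst)]
    refine lintegral_congr fun q => ?_
    simp only [Pi.mul_apply]
    ring
  rw [withDensity_apply _ hA, withDensity_apply _ hA, ← lintegral_indicator hA,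
    lintegral_map hind measurable_fst, h1,
    H.valid.count (fun q => A.indicator (fun y => ENNReal.ofReal (χ y)) q.1
      * ENNReal.ofReal (φ q / S.Jpi q)) ((hind.comp measurable_fst).mul hg0),
    ← lintegral_indicator hΩ, ← lintegral_indicator hA]
  refine lintegral_congr fun y => ?_
  have h2 := S.fibSum_mul_left (A.indicator fun y => ENNReal.ofReal (χ y))
    (fun q => ENNReal.ofReal (φ q / S.Jpi q)) y
  by_cases hyA : y ∈ A
  · by_cases hyΩ : y ∈ S.Ω
    · rw [indicator_of_mem hyΩ, indicator_of_mem hyA, Pi.mul_apply, indicator_of_mem hyΩ, h2,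
        indicator_of_mem hyA]
      ring
    · rw [indicator_of_notMem hyΩ, indicator_of_mem hyA, Pi.mul_apply, indicator_of_notMem hyΩ,
        zero_mul]
  · by_cases hyΩ : y ∈ S.Ω
    · rw [indicator_of_mem hyΩ, indicator_of_notMem hyA, h2, indicator_of_notMem hyA, zero_mul,
        zero_mul]
    · rw [indicator_of_notMem hyΩ, indicator_of_notMem hyA]

/-- the singular part. -/
theorem BotHyp.push_sing_part (H : BotHyp S Q χ) (φ : E m × E n → ℝ) :
    ((S.μ.withDensity ({q | S.Jpi q = 0}.indicator fun q => ENNReal.ofReal (φ q))).map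
        Prod.fst).withDensity (fun y => ENNReal.ofReal (χ y)) ⟂ₘ (volume : Measure (E m)) := by
  obtain ⟨Z, hZm, hZ0, hZ⟩ := H.valid.defic
  have hJ0 : MeasurableSet {q | S.Jpi q = 0} := H.valid.meas_Jpi (measurableSet_singleton 0)
  refine ⟨Zᶜ, hZm.compl, ?_, by rwa [compl_compl]⟩
  apply withDensity_absolutelyContinuous
  rw [Measure.map_apply measurable_fst hZm.compl,
    withDensity_apply _ (measurable_fst hZm.compl), setLIntegral_indicator hJ0]
  apply setLIntegral_measure_zero
  have : ({q | S.Jpi q = 0} ∩ Prod.fst ⁻¹' Zᶜ : Set (E m × E n))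
      = {q | S.Jpi q = 0} ∩ (Zᶜ ×ˢ (univ : Set (E n))) := by
    ext q; simp
  rw [this]
  exact hZ

theorem BotHyp.pushT_ac (H : BotHyp S Q χ) {φ : E m × E n → ℝ} (hφ : Measurable φ)
    (h0 : ∀ q, 0 ≤ φ q) :
    ∀ᵐ y ∂(volume : Measure (E m)), y ∈ ball (0 : E m) 2 →
      acD (S.pushT χ φ) y = S.a y * S.fibR φ y := by
  have hΩ := H.valid.isOpen_Ω.measurableSet
  have hg0 : Measurable fun q => ENNReal.ofReal (φ q / S.Jpi q) :=
    (hφ.div H.valid.meas_Jpi).ennreal_ofReal
  have hJm : Measurable fun q => ENNReal.ofReal (S.Jpi q) := H.valid.meas_Jpi.ennreal_ofReal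
  have hJ0 : MeasurableSet {q | S.Jpi q = 0} := H.valid.meas_Jpi (measurableSet_singleton 0)
  have hsplit : (fun q => ENNReal.ofReal (φ q))
      = ({q | S.Jpi q = 0}.indicator fun q => ENNReal.ofReal (φ q))
        + fun q => ENNReal.ofReal (φ q / S.Jpi q) * ENNReal.ofReal (S.Jpi q) := by
    funext q
    rw [Pi.add_apply]
    by_cases hq : S.Jpi q = 0
    · have : q ∈ {q | S.Jpi q = 0} := hq
      rw [indicator_of_mem this, hq, ENNReal.ofReal_zero, mul_zero, add_zero]
    · have : q ∉ {q | S.Jpi q = 0} := hq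
      have hpos : 0 < S.Jpi q := lt_of_le_of_ne (H.valid.Jpi_nonneg q) (Ne.symm hq)
      rw [indicator_of_notMem this, zero_add, ← ENNReal.ofReal_mul (div_nonneg (h0 q) hpos.le),
        div_mul_cancel₀ _ hq]
  set f : E m → ℝ≥0∞ := S.Ω.indicator (fun y => S.fibSum (fun q => ENNReal.ofReal (φ q / S.Jpi q)) y
          * ENNReal.ofReal (S.a y)) * fun y => ENNReal.ofReal (χ y) with hf
  have hadd : S.pushT χ φ
      = ((S.μ.withDensity ({q | S.Jpi q = 0}.indicator fun q => ENNReal.ofReal (φ q))).map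
        Prod.fst).withDensity (fun y => ENNReal.ofReal (χ y))
        + (volume : Measure (E m)).withDensity f := by
    rw [hf, ← H.push_ac_part hφ]
    unfold Sys.pushT
    have e1 : S.μ.withDensity (fun q => ENNReal.ofReal (φ q))
        = S.μ.withDensity ({q | S.Jpi q = 0}.indicator fun q => ENNReal.ofReal (φ q))
          + S.μ.withDensity
            fun q => ENNReal.ofReal (φ q / S.Jpi q) * ENNReal.ofReal (S.Jpi q) := by
      rw [← withDensity_add_left (hφ.ennreal_ofReal.indicator hJ0)]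
      exact congrArg _ hsplit
    rw [e1, Measure.map_add _ _ measurable_fst, withDensity_add_measure]
  have hfm : AEMeasurable f (volume : Measure (E m)) := by
    refine AEMeasurable.mul ?_ H.chi_meas.aemeasurable
    rw [aemeasurable_indicator_iff hΩ]
    exact (H.valid.count_meas _ hg0).mul
      H.valid.a_contDiff.continuous.measurable.ennreal_ofReal.aemeasurable
  have h3 := Measure.eq_rnDeriv₀ hfm (H.push_sing_part φ) hadd
  filter_upwards [h3] with y hy hy2
  have hyΩ : y ∈ S.Ω := H.room (ball_subset_ball (by norm_num) hy2)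
  unfold acD
  rw [← hy, hf, Pi.mul_apply, indicator_of_mem hyΩ, H.cut.eq_one y hy2, ENNReal.ofReal_one, mul_one,
    S.fibSum_eq_fibR H.valid.Jpi_nonneg h0, ENNReal.toReal_mul,
    ENNReal.toReal_ofReal (le_trans (by norm_num) (H.valid.a_lower y)), ENNReal.toReal_ofReal,
    mul_comm]
  unfold Sys.fibR
  apply Multiset.sum_nonneg
  intro x hx
  obtain ⟨ζ, _, rfl⟩ := Multiset.mem_map.1 hx
  exact div_nonneg (h0 _) (H.valid.Jpi_nonneg _)

end Claimed.Agent.R322.Sx
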